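import Vale.Agent.P338.R2.H335.Bp.XRun2
import Vale.Agent.P338.R2.H784.Fp.Inst

/-!
P338, stage 3: the kernel pass, with a small number of multiplications.
-/

namespace Vale.Agent.P338.R2.H335.Bp

open Vale.Agent.P338.R2.H898
open Vale.Agent.P338.R2.H968
open Vale.Agent.P338.R2.H784
open Vale.Agent.P338.R2.H784.Fp
open Vale.Agent.P338.R2.H968.CallEnv (mem0 callC)
open Vale.Agent.P338.R2.H525.Fp (Dim sPar hPar dimR kerBits VK RK)
open Vale.Agent.P338.R2.H778 (bits)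

variable {A A₀ : MTM} {l W h n p w : ℕ}
variable [DecidableEq (LF A.Tape A₀.Tape)] [DecidableEq (Al A A₀)]

/-- The kernel pass: `2 (X + Q)` multiplications only. -/
theorem run_kerQ2 (hA₀ : Multiplies A₀) (hD : (dimR l W h p w).Ok) (hwp : w < p)
    (dat clk opX : Zip (Al A A₀)) :
    Prog.Run (dd A A₀) (kerQ A A₀)
      (sto (sB l W h n p w dat clk opX (nl A A₀) (nl A A₀)))
      (2 * ((dimR l W h p w).X + (dimR l W h p w).Q) * wcost A₀ W +
        14 * (((dimR l W h p w).X + (dimR l W h p w).Q) *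
        (dimR l W h p w).R * (dimR l W h p w).E * (12 * W + 12)) + (16 * W + 20))
      (sto (sB l W h n p w dat clk opX (bw A A₀ (kerBits (dimR l W h p w))) (nl A A₀))) := by
  have hW1 : 1 ≤ W := H207.Fp.W_pos hD
  set D := dimR l W h p w with hDD
  have hev := H525.Fp.eval_kerP (L := D.L) (w := []) (rulK l W h p w) hD
    (fun i => if i ∈ scK then 0 else w)
    (by
      show w = w % p
      rw [Nat.mod_eq_of_lt hwp]) rfl rfl 0 []
  have hpos : ∀ r, 0 < H778.FpW.vB l W h (p - 1) (ρK r) := by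
    intro r
    have h5 : 1 < p - 1 := H207.Fp.Q_pos hD
    cases r
    · exact Nat.one_le_two_pow
    · show 0 < p - 1
      omega
    · exact Nat.one_le_two_pow
    · exact Nat.one_le_two_pow
    · exact Nat.one_le_two_pow
  have h1 := run_wpassMap2 (d := dd A A₀) (M := Mem A A₀) hA₀ (lE A A₀ RK VK) (fun _ => rfl) .u .k
    (by simp) scK (by decide) H525.Fp.kerP H525.Fp.kerP_wf (mem := (mem0 A, mem0 A₀)) rfl
    (W := W) (L := D.L) (p := p) (μ := 2 ^ W / p + 1) hD.hL hW1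
    (H207.Fp.p_lt D hD) (H207.Fp.mu_lt D hD) (fun r => H778.FpW.vB l W h (p - 1) (ρK r))
    (fun r _ => hpos r) (fun _ => w) (H525.Fp.kerReg D (fun i => if i ∈ scK then 0 else w)
      (D.X + D.Q))
    (by
      intro i hi
      cases i <;> first | rfl | exact absurd (by decide) hi) []
    (ι := ip A.Tape A₀.Tape .res .opY ρK νK) (ip_inj rfl rfl (by simp) ρK_inj νK_inj
      (by intro r; cases r <;> simp [ρK]) (by intro r; cases r <;> simp [ρK])
      (by intro r; cases r <;> simp [νK]) (by intro r; cases r <;> simp [νK]))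
    (zst .u (sB l W h n p w dat clk opX (nl A A₀) (nl A A₀)))
    (wInit_zst (W := W) (p := p) (μ := 2 ^ W / p + 1) scK H525.Fp.kerP
      (sB l W h n p w dat clk opX (nl A A₀) (nl A A₀)) rfl rfl rfl rfl
      (fun _ => w) (by
        intro i
        cases i <;> simp [sB, zA, νK, scK]) [] rfl rfl) hev
  rw [show ip A.Tape A₀.Tape .res .opY ρK νK (WF.out : WF RK VK A₀.Tape) = lz .opY from rfl,
    zst_opY] at h1
  refine h1.mono ?_
  have hb := H525.Fp.bd_kerP (rulK l W h p w) hD (wc2 A₀ W) (wcost A₀ W) (12 * W + 12)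
    (by omega) (fun _ _ _ => le_rfl) (fun _ => le_rfl) (fun _ _ => le_rfl) (fun _ => le_rfl)
  rw [← hDD] at hb
  have e5 : scK.length = 4 := rfl
  rw [e5]
  omega

theorem two_pow_sPar (hW : 32 ≤ W) : 2 ^ sPar W * 2 ≤ 2 ^ W := by
  obtain ⟨g1, g2, g3, g4, g5, g6, g7⟩ := H525.Fp.par W hW
  rw [← pow_succ]
  apply Nat.pow_le_pow_right (by norm_num)
  omega

theorem sq_le_two_pow (n : ℕ) : n ^ 2 ≤ 2 * 2 ^ n := by
  rcases Nat.lt_or_ge n 4 with h | h
  · interval_cases n <;> norm_num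
  · induction n, h using Nat.le_induction with
    | base => norm_num
    | succ n hn ih =>
      rw [pow_succ 2 n]
      nlinarith

theorem sPar_sq (hW : 32 ≤ W) (hWl : W ≤ l) : 2 ^ sPar W * W ^ 2 ≤ 4 ^ l := by
  have h1 := two_pow_sPar hW
  have h2 := sq_le_two_pow W
  calc 2 ^ sPar W * W ^ 2 ≤ 2 ^ sPar W * (2 * 2 ^ W) := Nat.mul_le_mul_left _ h2
    _ = (2 ^ sPar W * 2) * 2 ^ W := by ring
    _ ≤ 2 ^ W * 2 ^ W := Nat.mul_le_mul_right _ h1
    _ = 4 ^ W := by rw [← mul_pow]; norm_num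
    _ ≤ 4 ^ l := Nat.pow_le_pow_right (by norm_num) hWl

theorem sPar_sq' (hW : 32 ≤ W) (hWl : W ≤ l) : 4 ^ sPar W * W ^ 2 ≤ 4 ^ l := by
  obtain ⟨g1, g2, g3, g4, g5, g6, g7⟩ := H525.Fp.par W hW
  have h2 := sq_le_two_pow W
  calc 4 ^ sPar W * W ^ 2 ≤ 4 ^ sPar W * (2 * 2 ^ W) := Nat.mul_le_mul_left _ h2
    _ = 2 ^ (2 * sPar W + 1) * 2 ^ W := by
        rw [pow_succ 2 (2 * sPar W), pow_mul]
        norm_num
        ring
    _ ≤ 2 ^ W * 2 ^ W := Nat.mul_le_mul_right _ (Nat.pow_le_pow_right (by norm_num) (by omega))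
    _ = 4 ^ W := by rw [← mul_pow]; norm_num
    _ ≤ 4 ^ l := Nat.pow_le_pow_right (by norm_num) hWl

/-- The rows of the kernel. -/
theorem rows_sq (hW : 32 ≤ W) (hWl : W ≤ l) (hp2 : p ≤ 4 * 2 ^ sPar W) :
    ((dimR l W h p w).X + (dimR l W h p w).Q) * W ^ 2 ≤ 5 * 4 ^ l := by
  have h1 : (dimR l W h p w).X + (dimR l W h p w).Q ≤ 5 * 2 ^ sPar W := by
    show 2 ^ sPar W + (p - 1) ≤ _
    omega
  calc ((dimR l W h p w).X + (dimR l W h p w).Q) * W ^ 2
      ≤ (5 * 2 ^ sPar W) * W ^ 2 := Nat.mul_le_mul_right _ h1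
    _ = 5 * (2 ^ sPar W * W ^ 2) := by ring
    _ ≤ 5 * 4 ^ l := Nat.mul_le_mul_left _ (sPar_sq hW hWl)

/-- The entries of the table of the middle pass. -/
theorem tabM_sq (hW : 32 ≤ W) (hWl : W ≤ l) (hp2 : p ≤ 4 * 2 ^ sPar W) :
    (dimR l W h p w).Q * (2 * (dimR l W h p w).X) * W ^ 2 ≤ 8 * 4 ^ l := by
  have h1 : (dimR l W h p w).Q * (2 * (dimR l W h p w).X) ≤ 8 * 4 ^ sPar W := by
    show (p - 1) * (2 * 2 ^ sPar W) ≤ _
    calc (p - 1) * (2 * 2 ^ sPar W) ≤ (4 * 2 ^ sPar W) * (2 * 2 ^ sPar W) :=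
          Nat.mul_le_mul_right _ (by omega)
      _ = 8 * (2 ^ sPar W * 2 ^ sPar W) := by ring
      _ = 8 * 4 ^ sPar W := by rw [← mul_pow]; norm_num
  calc (dimR l W h p w).Q * (2 * (dimR l W h p w).X) * W ^ 2
      ≤ (8 * 4 ^ sPar W) * W ^ 2 := Nat.mul_le_mul_right _ h1
    _ = 8 * (4 ^ sPar W * W ^ 2) := by ring
    _ ≤ 8 * 4 ^ l := Nat.mul_le_mul_left _ (sPar_sq' hW hWl)

/-- The entries of the table of the final pass. -/
theorem tabP_sq (hW : 32 ≤ W) (hWl : W ≤ l) :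
    (dimR l W h p w).X * (dimR l W h p w).X * W ^ 2 ≤ 4 ^ l := by
  have h1 : (dimR l W h p w).X * (dimR l W h p w).X = 4 ^ sPar W := by
    show 2 ^ sPar W * 2 ^ sPar W = _
    rw [← mul_pow]
    norm_num
  rw [h1]
  exact sPar_sq' hW hWl

omit [DecidableEq (LF A.Tape A₀.Tape)] [DecidableEq (Al A A₀)] in
/-- The cost of an instruction with schoolbook multiplications. -/
theorem wcost_school (h600 : ∀ n : ℕ, 1 ≤ n → mulTime A₀ n ≤ 600 * n ^ 2) (hW : 1 ≤ W) :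
    wcost A₀ W ≤ 601 * (3 * callC A₀ + 230) * W ^ 2 := by
  unfold wcost
  have h3 : mulTime A₀ W + W ≤ 601 * W ^ 2 := by
    have := h600 W hW
    nlinarith
  calc (3 * callC A₀ + 230) * (mulTime A₀ W + W) ≤ (3 * callC A₀ + 230) * (601 * W ^ 2) :=
        Nat.mul_le_mul_left _ h3
    _ = 601 * (3 * callC A₀ + 230) * W ^ 2 := by ring

omit [DecidableEq (LF A.Tape A₀.Tape)] [DecidableEq (Al A A₀)] in
/-- `k` multiplications of words of `W` bits, `k W ^ 2 ≤ c 4 ^ l`. -/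
theorem mul_wcost_school (h600 : ∀ n : ℕ, 1 ≤ n → mulTime A₀ n ≤ 600 * n ^ 2) (hW : 1 ≤ W)
    {k c : ℕ} (hk : k * W ^ 2 ≤ c * 4 ^ l) :
    k * wcost A₀ W ≤ 601 * (3 * callC A₀ + 230) * c * 4 ^ l := by
  calc k * wcost A₀ W ≤ k * (601 * (3 * callC A₀ + 230) * W ^ 2) :=
        Nat.mul_le_mul_left _ (wcost_school h600 hW)
    _ = 601 * (3 * callC A₀ + 230) * (k * W ^ 2) := by ring
    _ ≤ 601 * (3 * callC A₀ + 230) * (c * 4 ^ l) := Nat.mul_le_mul_left _ hk
    _ = _ := by ring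

/-- The constant in the cost of the kernel pass. -/
noncomputable def cKer (A₀ : MTM) : ℕ := 6010 * (3 * callC A₀ + 230) + 200000

/-- The kernel pass with schoolbook multiplications. -/
theorem run_kerQ3 (hA₀ : Multiplies A₀) (h600 : ∀ n : ℕ, 1 ≤ n → mulTime A₀ n ≤ 600 * n ^ 2)
    (hW : 32 ≤ W) (hWl : W ≤ l) (h1 : hPar W + sPar W ≤ h) (hl : h ≤ l) (hp : p.Prime)
    (hp1 : 2 * 2 ^ sPar W < p) (hp2 : p ≤ 4 * 2 ^ sPar W) (hw : orderOf (w : ZMod p) = p - 1)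
    (hwp : w < p) (dat clk opX : Zip (Al A A₀)) :
    Prog.Run (dd A A₀) (kerQ A A₀)
      (sto (sB l W h n p w dat clk opX (nl A A₀) (nl A A₀)))
      (cKer A₀ * 4 ^ l)
      (sto (sB l W h n p w dat clk opX (bw A A₀ (kerBits (dimR l W h p w))) (nl A A₀))) := by
  have hD := H525.Fp.dimR_ok l W h p w hW hp hp1 hp2 hw
  obtain ⟨y1, y2, y3, y4, y5⟩ := H525.Fp.dimR_slots l W h p w hW h1 hl hp.pos hp2
  refine (run_kerQ2 (n := n) hA₀ hD hwp dat clk opX).mono ?_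
  have e1 := mul_wcost_school (A₀ := A₀) (l := l) h600 (by omega : 1 ≤ W)
    (rows_sq (l := l) (W := W) (h := h) (w := w) hW hWl hp2)
  have e2 : 2 * ((dimR l W h p w).X + (dimR l W h p w).Q) * wcost A₀ W =
      2 * (((dimR l W h p w).X + (dimR l W h p w).Q) * wcost A₀ W) := by ring
  have e3 : ((dimR l W h p w).X + (dimR l W h p w).Q) * (dimR l W h p w).R *
      (dimR l W h p w).E * (12 * W + 12) ≤ 24 * (576 * 4 ^ l) := by
    calc ((dimR l W h p w).X + (dimR l W h p w).Q) * (dimR l W h p w).R *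
          (dimR l W h p w).E * (12 * W + 12)
        ≤ ((dimR l W h p w).X + (dimR l W h p w).Q) * (dimR l W h p w).R *
          (dimR l W h p w).E * (24 * W) := Nat.mul_le_mul_left _ (by omega)
      _ = 24 * (((dimR l W h p w).X + (dimR l W h p w).Q) * (dimR l W h p w).R *
          (dimR l W h p w).E * W) := by ring
      _ ≤ 24 * (576 * 4 ^ l) := Nat.mul_le_mul_left _ y2
  have e4 : l < 4 ^ l := Nat.lt_pow_self (by norm_num)
  have e5 : cKer A₀ * 4 ^ l = 2 * (601 * (3 * callC A₀ + 230) * 5 * 4 ^ l) + 200000 * 4 ^ l := by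
    unfold cKer
    ring
  rw [e2, e5]
  omega

end Vale.Agent.P338.R2.H335.Bp
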