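import Vale.Agent.P338.R2.H282.Bp.Num1
import Vale.Agent.P338.R2.H898.XRun
import Vale.Agent.P338.R2.H968.School

/-!
P338, stage 3: arithmetic of the cost of the batch multiplication.
-/

namespace Vale.Agent.P338.R2.H335.Bp

open Vale.Agent.P338.R2.H784.Bp
open Vale.Agent.P338.R2.H282.Bp
open Vale.Agent.P338.R2.H898

/-! ### Sizes -/

theorem gB_le_log {W : ℕ} (hW : 2 ≤ W) : gB W ≤ 2 * Nat.log 2 W := by
  unfold gB
  have : 1 ≤ Nat.log 2 W := Nat.log_pos (by norm_num) hW
  omega

theorem gB_mono {W W' : ℕ} (h : W ≤ W') : gB W ≤ gB W' := by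
  unfold gB
  have := Nat.log_mono_right (b := 2) h
  omega

theorem gB_le_self {W : ℕ} (hW : 1 ≤ W) : gB W ≤ W := by
  unfold gB
  exact Nat.log_lt_self 2 (by omega)

theorem one_le_gB (W : ℕ) : 1 ≤ gB W := Nat.succ_pos _

theorem one_le_bB (W : ℕ) : 1 ≤ bB W := by
  unfold bB
  have := one_le_gB W
  omega

/-- `g D ≤ 2 W`. -/
theorem gd_le {W : ℕ} (hW : 1 ≤ W) : gB W * dB W ≤ 2 * W := by
  rw [gB_mul_dB]
  have h1 := padB_le W
  have h2 := gB_le_self hW
  omega

section

variable {W q om nu iv : ℕ} (hQ : Prm W q om nu iv)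

include hQ

/-- Every number of elements of a word which is at most `A` times `D` costs at most
`800 A W g`, with schoolbook multiplications. -/
theorem elt_cost {A B : ℕ} (hA : A ≤ B * dB W) : A * bB W ^ 2 ≤ 800 * B * (W * gB W) := by
  have hW : 1 ≤ W := le_trans (by norm_num) hQ.hW
  have h1 := gd_le hW
  calc A * bB W ^ 2 ≤ (B * dB W) * bB W ^ 2 := Nat.mul_le_mul_right _ hA
    _ = 400 * B * (gB W * dB W) * gB W := by unfold bB; ring
    _ ≤ 400 * B * (2 * W) * gB W :=
        Nat.mul_le_mul_right _ (Nat.mul_le_mul_left _ h1)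
    _ = 800 * B * (W * gB W) := by ring

/-- Elementary operations on files of elements. -/
theorem elt_len {A B : ℕ} (hA : A ≤ B * dB W) : A * bB W ≤ 40 * B * W := by
  have hW : 1 ≤ W := le_trans (by norm_num) hQ.hW
  have h1 := gd_le hW
  calc A * bB W ≤ (B * dB W) * bB W := Nat.mul_le_mul_right _ hA
    _ = 20 * B * (gB W * dB W) := by unfold bB; ring
    _ ≤ 20 * B * (2 * W) := Nat.mul_le_mul_left _ h1
    _ = 40 * B * W := by ring

theorem elt_cost_mul {A B : ℕ} (hA : A ≤ B * dB W) (N : ℕ) :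
    N * A * bB W ^ 2 ≤ 800 * B * (N * W * gB W) := by
  calc N * A * bB W ^ 2 = N * (A * bB W ^ 2) := by ring
    _ ≤ N * (800 * B * (W * gB W)) := Nat.mul_le_mul_left _ (elt_cost hQ hA)
    _ = 800 * B * (N * W * gB W) := by ring

theorem elt_len_mul {A B : ℕ} (hA : A ≤ B * dB W) (N : ℕ) :
    N * A * bB W ≤ 40 * B * (N * W) := by
  calc N * A * bB W = N * (A * bB W) := by ring
    _ ≤ N * (40 * B * W) := Nat.mul_le_mul_left _ (elt_len hQ hA)
    _ = 40 * B * (N * W) := by ring

/-- The number of elements per word in the forward transform. -/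
theorem cnt_fwd : 2 * dB W + (q - 1) ≤ 6 * dB W := by
  have := hQ.hq2
  omega

/-- The number of elements per word in the inverse transform. -/
theorem cnt_inv : 2 * (q - 1) + (2 * dB W - 1) ≤ 10 * dB W := by
  have := hQ.hq2
  omega

theorem cost_fwd (N : ℕ) : N * (2 * dB W + (q - 1)) * bB W ^ 2 ≤ 4800 * (N * W * gB W) :=
  elt_cost_mul hQ (cnt_fwd hQ) N

theorem cost_inv (N : ℕ) :
    N * (2 * (q - 1) + (2 * dB W - 1)) * bB W ^ 2 ≤ 8000 * (N * W * gB W) :=
  elt_cost_mul hQ (cnt_inv hQ) N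

theorem len_fwd (N : ℕ) : N * (2 * dB W + (q - 1)) * bB W ≤ 240 * (N * W) :=
  elt_len_mul hQ (cnt_fwd hQ) N

theorem len_inv (N : ℕ) : N * (2 * (q - 1) + (2 * dB W - 1)) * bB W ≤ 400 * (N * W) :=
  elt_len_mul hQ (cnt_inv hQ) N

/-- One element per word costs less than `W g`. -/
theorem b_sq_le : bB W ^ 2 ≤ 400 * (W * gB W) := by
  have hW : 1 ≤ W := le_trans (by norm_num) hQ.hW
  calc bB W ^ 2 = 400 * (gB W * gB W) := by unfold bB; ring
    _ ≤ 400 * (W * gB W) := Nat.mul_le_mul_left _ (Nat.mul_le_mul_right _ (gB_le_self hW))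

theorem b_le : bB W ≤ 20 * W := by
  have hW : 1 ≤ W := le_trans (by norm_num) hQ.hW
  exact Nat.mul_le_mul_left _ (gB_le_self hW)

theorem q_sub_one_le : q - 1 ≤ 4 * dB W := by
  have := hQ.hq2
  omega

/-- Lengths: the forward kernel. -/
theorem len_kerF : (dB W + (q - 1)) * bB W ≤ 200 * W := by
  refine (elt_len hQ (B := 5) ?_).trans (by omega)
  have := hQ.hq2
  omega

/-- Lengths: the backward kernel. -/
theorem len_kerI : ((q - 1) + (2 * dB W - 1)) * bB W ≤ 240 * W := by
  refine (elt_len hQ (B := 6) ?_).trans (by omega)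
  have := hQ.hq2
  omega

/-- Lengths: the spread file. -/
theorem len_spread (N : ℕ) : N * dB W * bB W ≤ 40 * (N * W) :=
  elt_len_mul hQ (B := 1) (by omega) N

/-- Lengths: the transforms of the words. -/
theorem len_tr (N : ℕ) : N * (q - 1) * bB W ≤ 160 * (N * W) :=
  elt_len_mul hQ (B := 4) (q_sub_one_le hQ) N

/-- Lengths: the coefficients. -/
theorem len_co (N : ℕ) : N * (2 * dB W - 1) * bB W ≤ 80 * (N * W) :=
  elt_len_mul hQ (B := 2) (by omega) N

/-- Lengths: the files of digits. -/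
theorem len_car (N : ℕ) : N * ((2 * dB W - 1 + 2) * gB W) ≤ 5 * (N * W) := by
  have hW : 1 ≤ W := le_trans (by norm_num) hQ.hW
  have h1 := gd_le hW
  have h2 := gB_le_self hW
  have h3 : (2 * dB W - 1 + 2) * gB W ≤ 5 * W := by
    have h4 : 2 * dB W - 1 + 2 = 2 * dB W + 1 := by
      have := one_le_dB W
      omega
    rw [h4]
    calc (2 * dB W + 1) * gB W = 2 * (gB W * dB W) + gB W := by ring
      _ ≤ 2 * (2 * W) + W := by omega
      _ = 5 * W := by ring
  calc N * ((2 * dB W - 1 + 2) * gB W) ≤ N * (5 * W) := Nat.mul_le_mul_left _ h3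
    _ = 5 * (N * W) := by ring

end

/-- Everything of at most `400 N W` bits fits. -/
theorem fits {A N W n : ℕ} (h : A ≤ 400 * (N * W)) (hn : 400 * N * W ≤ n) : A ≤ n := by
  refine h.trans (le_trans (le_of_eq ?_) hn)
  ring

/-- A piece fits. -/
theorem piece_fits {W n : ℕ} : 400 * jB W n * W ≤ n := by
  unfold jB
  calc 400 * (n / (400 * W)) * W = (n / (400 * W)) * (400 * W) := by ring
    _ ≤ n := Nat.div_mul_le_self n _

theorem piece_fits' {W n N : ℕ} (h : N ≤ jB W n) : 400 * N * W ≤ n :=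
  (Nat.mul_le_mul_right _ (Nat.mul_le_mul_left _ h)).trans piece_fits

/-! ### The cost of the words -/

/-- A multiplying machine for which every instruction on words of `b` bits costs `O(b ^ 2)`. -/
theorem exists_wcost : ∃ S : MTM, Multiplies S ∧ ∃ K : ℕ, ∀ b : ℕ, 1 ≤ b →
    wcost S b ≤ K * b ^ 2 := by
  obtain ⟨S, h1, h2⟩ := Vale.Agent.P338.R2.H968.School.exists_school
  refine ⟨S, h1, (3 * H968.CallEnv.callC S + 230) * 601, fun b hb => ?_⟩
  unfold wcost
  have h3 : mulTime S b + b ≤ 601 * b ^ 2 := by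
    have := h2 b hb
    nlinarith
  calc (3 * H968.CallEnv.callC S + 230) * (mulTime S b + b) ≤ (3 * H968.CallEnv.callC S + 230) * (601 * b ^ 2) :=
        Nat.mul_le_mul_left _ h3
    _ = (3 * H968.CallEnv.callC S + 230) * 601 * b ^ 2 := by ring

/-- The cost of a pass of the forward transform. -/
theorem pass_fwd {W q om nu iv : ℕ} (hQ : Prm W q om nu iv) {S : MTM} {K : ℕ}
    (hK : ∀ b : ℕ, 1 ≤ b → wcost S b ≤ K * b ^ 2) {N : ℕ} (hN : 1 ≤ N) :
    20 * (N * (2 * dB W + (q - 1))) * wcost S (bB W) + 20 * wcost S (bB W) ≤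
      104000 * K * (N * W * gB W) := by
  have h1 := hK (bB W) (one_le_bB W)
  have h2 := cost_fwd hQ N
  have h3 := b_sq_le hQ
  have h4 : W * gB W ≤ N * W * gB W := by
    calc W * gB W = 1 * W * gB W := by ring
      _ ≤ N * W * gB W := Nat.mul_le_mul_right _ (Nat.mul_le_mul_right _ hN)
  calc 20 * (N * (2 * dB W + (q - 1))) * wcost S (bB W) + 20 * wcost S (bB W)
      ≤ 20 * (N * (2 * dB W + (q - 1))) * (K * bB W ^ 2) + 20 * (K * bB W ^ 2) :=
        Nat.add_le_add (Nat.mul_le_mul_left _ h1) (Nat.mul_le_mul_left _ h1)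
    _ = K * (20 * (N * (2 * dB W + (q - 1)) * bB W ^ 2) + 20 * bB W ^ 2) := by ring
    _ ≤ K * (20 * (4800 * (N * W * gB W)) + 20 * (400 * (N * W * gB W))) := by
        apply Nat.mul_le_mul_left
        omega
    _ = 104000 * K * (N * W * gB W) := by ring

/-- The cost of a pass of the inverse transform. -/
theorem pass_inv {W q om nu iv : ℕ} (hQ : Prm W q om nu iv) {S : MTM} {K : ℕ}
    (hK : ∀ b : ℕ, 1 ≤ b → wcost S b ≤ K * b ^ 2) {N : ℕ} (hN : 1 ≤ N) :
    20 * (N * (2 * (q - 1) + (2 * dB W - 1))) * wcost S (bB W) + 20 * wcost S (bB W) ≤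
      168000 * K * (N * W * gB W) := by
  have h1 := hK (bB W) (one_le_bB W)
  have h2 := cost_inv hQ N
  have h3 := b_sq_le hQ
  have h4 : W * gB W ≤ N * W * gB W := by
    calc W * gB W = 1 * W * gB W := by ring
      _ ≤ N * W * gB W := Nat.mul_le_mul_right _ (Nat.mul_le_mul_right _ hN)
  calc 20 * (N * (2 * (q - 1) + (2 * dB W - 1))) * wcost S (bB W) + 20 * wcost S (bB W)
      ≤ 20 * (N * (2 * (q - 1) + (2 * dB W - 1))) * (K * bB W ^ 2) + 20 * (K * bB W ^ 2) :=
        Nat.add_le_add (Nat.mul_le_mul_left _ h1) (Nat.mul_le_mul_left _ h1)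
    _ = K * (20 * (N * (2 * (q - 1) + (2 * dB W - 1)) * bB W ^ 2) + 20 * bB W ^ 2) := by ring
    _ ≤ K * (20 * (8000 * (N * W * gB W)) + 20 * (400 * (N * W * gB W))) := by
        apply Nat.mul_le_mul_left
        omega
    _ = 168000 * K * (N * W * gB W) := by ring

/-! ### Sums over the pieces -/

/-- The sizes of the pieces add up. -/
theorem sum_pieces {J T f : ℕ} (h : T ≤ f * J) :
    ∑ i ∈ Finset.range f, min J (T - i * J) = T := by
  have key : ∀ f, ∑ i ∈ Finset.range f, min J (T - i * J) = min T (f * J) := by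
    intro f
    induction f with
    | zero => simp
    | succ f ih =>
      rw [Finset.sum_range_succ, ih, Nat.add_mul, one_mul]
      omega
  rw [key, min_eq_left h]

theorem sum_pieces_le (J T f : ℕ) :
    ∑ i ∈ Finset.range f, min J (T - i * J) ≤ T := by
  have key : ∀ f, ∑ i ∈ Finset.range f, min J (T - i * J) = min T (f * J) := by
    intro f
    induction f with
    | zero => simp
    | succ f ih =>
      rw [Finset.sum_range_succ, ih, Nat.add_mul, one_mul]
      omega
  rw [key]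
  exact min_le_left _ _

/-- The total cost of the pieces: a piece of `N` words costs `A + B N`. -/
theorem sum_cost {J T f A B : ℕ} (c : ℕ → ℕ)
    (hc : ∀ i < f, c i ≤ A + B * min J (T - i * J)) :
    ∑ i ∈ Finset.range f, c i ≤ f * A + B * T := by
  calc ∑ i ∈ Finset.range f, c i
      ≤ ∑ i ∈ Finset.range f, (A + B * min J (T - i * J)) :=
        Finset.sum_le_sum fun i hi => hc i (Finset.mem_range.1 hi)
    _ = f * A + B * ∑ i ∈ Finset.range f, min J (T - i * J) := by
        rw [Finset.sum_add_distrib, Finset.mul_sum]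
        simp
    _ ≤ f * A + B * T := by
        have := Nat.mul_le_mul_left B (sum_pieces_le J T f)
        omega

/-- The number of pieces: `801` pieces of `J = n / (400 W)` words suffice for `T` words if
`T W ≤ n` and `400 W ≤ n`. -/
theorem num_pieces {W n T : ℕ} (hW : 1 ≤ W) (hn : 400 * W ≤ n) (hT : T * W ≤ n) :
    T ≤ 801 * jB W n := by
  unfold jB
  have h0 : 0 < 400 * W := by omega
  have h1 : 1 ≤ n / (400 * W) := (Nat.one_le_div_iff h0).2 hn
  have h2 : n < 400 * W * (n / (400 * W) + 1) := Nat.lt_mul_div_succ n h0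
  by_contra hcon
  push Not at hcon
  have h3 : (801 * (n / (400 * W)) + 1) * W ≤ T * W := Nat.mul_le_mul_right _ hcon
  have h4 : 400 * W * (n / (400 * W) + 1) ≤ 800 * (n / (400 * W)) * W := by
    calc 400 * W * (n / (400 * W) + 1) = 400 * (n / (400 * W) + 1) * W := by ring
      _ ≤ 800 * (n / (400 * W)) * W := Nat.mul_le_mul_right _ (by omega)
  have h5 : 800 * (n / (400 * W)) * W ≤ (801 * (n / (400 * W)) + 1) * W :=
    Nat.mul_le_mul_right _ (by omega)
  omega

theorem one_le_jB {W n : ℕ} (hW : 1 ≤ W) (hn : 400 * W ≤ n) : 1 ≤ jB W n :=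
  (Nat.one_le_div_iff (by omega)).2 hn

end Vale.Agent.P338.R2.H335.Bp
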