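import Vale.Agent.P338.R2.H898.XPass

/-!
P338, stage 3: the cost of the instructions on words, multiplications and the other instructions
separately. (The proofs of the `Run` statements are those of `H898.XRun`, with the better bound.)
-/

namespace Vale.Agent.P338.R2.H335.Bp

open Vale.Agent.P338.R2.H898
open H968 (forR run_forR copyN run_copyN run_act run_act' seqL run_skip upd_self zipAt CFile
  CallEnv CallMem)
open H968.CallEnv (mem0 callC)
open H806 (atp right_atp rew_atp atp_peek atp_peek_isSome atp_succ_of_le)
open H806.LP (skipP)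
open H525.Fp (mmN)
open H778 (bits)
open Prog
open Function (update)

/-- Bound of the cost of an instruction: the multiplications cost `wcost`, the others `O(W)`. -/
noncomputable def wc2 {V : Type} (A : MTM) (W : ℕ) : WI V → ℕ
  | .mul _ _ _ => wcost A W
  | _ => 12 * W + 12

section instr

variable {M R V α : Type} [Finite R] [Finite V] [DecidableEq V] {d : α} {A : MTM}
  {E : CallEnv A M (WF R V A.Tape) α d} {unbit : α → Bool}
  {W L p μ : ℕ} {NR LR w : List α} {q : ℕ} {o : List α} {u : V → ℕ}
  {g : WF R V A.Tape → Zip α} {m : M}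

theorem run_rd2 (hu : ∀ b, unbit (E.bit b) = b) (hNR : NR.length = W) (hW : 1 ≤ W) (i : V) :
    Run d (wprog E unbit (.rd i)) ⟨m, wst E.bit W p μ NR LR w q o u g⟩ (12 * W + 12)
      ⟨m, wst E.bit W p μ NR LR w (q + W) o (update u i
        (H778.val ((List.range W).map fun t => unbit (w.getD (q + t) (E.bit false))))) g⟩ := by
  have hfr : (.reg i : WF R V A.Tape) ≠ .wid := by simp
  have hfi : (.reg i : WF R V A.Tape) ≠ .inp := by simp
  set z := wst E.bit W p μ NR LR w q o u g with hz
  set c : ℕ → α := fun t => E.bit (unbit (w.getD (q + t) (E.bit false))) with hc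
  have h0 := run_trunc (d := d) (m := m) (z := z) (f := .reg i) (wst_reg i)
  -- the state after `t` symbols
  have hskip : ∀ (t : ℕ) (z' : WF R V A.Tape → Zip α), z' .inp = atp w (q + t) →
      Run d (skipP .inp : Prog M (WF R V A.Tape) α) ⟨m, z'⟩ 1
        ⟨m, update z' .inp (atp w (q + (t + 1)))⟩ := by
    intro t z' hz'
    apply Run.prim'
    have h1 : (Store.reads ⟨m, z'⟩ .inp : Option α) = (atp w (q + t)).peek := by
      simp only [Store.reads]
      rw [hz']
    rw [h1, atp_peek_isSome]
    by_cases h : q + t < w.length
    · simp only [h, decide_true, if_true, appAct]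
      rw [hz', right_atp d w _ h]
      rfl
    · simp only [h, decide_false, appAct]
      have h2 : atp w (q + (t + 1)) = atp w (q + t) := atp_succ_of_le w (q + t) (by omega)
      rw [h2]
      simp only [Bool.false_eq_true, if_false, Store.mk.injEq, true_and]
      rw [← hz', Function.update_eq_self]
  have h1 := run_forR (d := d) (r := (.wid : WF R V A.Tape)) (p := rd1 E.bit unbit i) (R := NR)
    (m := m)
    (fun t => update (update z .inp (atp w (q + t))) (.reg i)
      ⟨((List.range t).map c).reverse, []⟩) 3
    (fun t => by
      rw [Function.update_of_ne hfr.symm, Function.update_of_ne (by simp), hz, wst_wid])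
    (fun t ht => by
      have e1 : ((List.range (t + 1)).map c).reverse = c t :: ((List.range t).map c).reverse := by
        rw [List.range_succ, List.map_append, List.reverse_append]
        rfl
      have k1 : Run d (.prim fun m x => (m, some (.reg i, .write (E.bit (unbit ((x .inp).getD
          (E.bit false)))))) : Prog M (WF R V A.Tape) α)
          ⟨m, update (update (update z .inp (atp w (q + t))) (.reg i)
            ⟨((List.range t).map c).reverse, []⟩) .wid (zipAt NR t)⟩ 1
          ⟨m, update (update (update (update z .inp (atp w (q + t))) (.reg i)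
            ⟨((List.range t).map c).reverse, []⟩) .wid (zipAt NR t)) (.reg i)
            ⟨((List.range t).map c).reverse, [c t]⟩⟩ := by
        apply Run.prim'
        simp only [Store.reads, appAct]
        congr 2
        rw [Function.update_of_ne (show (.inp : WF R V A.Tape) ≠ .wid by simp),
          Function.update_of_ne hfi.symm, Function.update_self,
          Function.update_of_ne hfr, Function.update_self, atp_peek]
        rfl
      have k2 := run_act' (d := d) (f := (.reg i : WF R V A.Tape)) (o := .right)
        (v := ⟨((List.range (t + 1)).map c).reverse, []⟩) (m := m)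
        (z := update (update (update (update z .inp (atp w (q + t))) (.reg i)
            ⟨((List.range t).map c).reverse, []⟩) .wid (zipAt NR t)) (.reg i)
            ⟨((List.range t).map c).reverse, [c t]⟩)
        (by
          rw [Function.update_self, e1]
          rfl)
      have k3 := hskip t (update (update (update (update (update z .inp (atp w (q + t))) (.reg i)
            ⟨((List.range t).map c).reverse, []⟩) .wid (zipAt NR t)) (.reg i)
            ⟨((List.range t).map c).reverse, [c t]⟩) (.reg i)
            ⟨((List.range (t + 1)).map c).reverse, []⟩)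
        (by
          rw [Function.update_of_ne hfi.symm, Function.update_of_ne hfi.symm,
            Function.update_of_ne (show (.inp : WF R V A.Tape) ≠ .wid by simp),
            Function.update_of_ne hfi.symm, Function.update_self])
      have k4 := Run.seq k1 (Run.seq k2 k3)
      have e2 : update (update (update (update (update (update z .inp (atp w (q + t))) (.reg i)
            ⟨((List.range t).map c).reverse, []⟩) .wid (zipAt NR t)) (.reg i)
            ⟨((List.range t).map c).reverse, [c t]⟩) (.reg i)
            ⟨((List.range (t + 1)).map c).reverse, []⟩) .inp (atp w (q + (t + 1))) =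
          update (update (update z .inp (atp w (q + (t + 1)))) (.reg i)
            ⟨((List.range (t + 1)).map c).reverse, []⟩) .wid (zipAt NR t) := by
        funext f
        by_cases f1 : f = .inp
        · subst f1
          simp
        · by_cases f2 : f = .reg i
          · subst f2
            simp
          · by_cases f3 : f = .wid
            · subst f3
              simp
            · simp [f1, f2, f3]
      rw [e2] at k4
      exact k4)
  rw [hNR] at h1
  have e3 : update (update z .inp (atp w (q + 0))) (.reg i)
      ⟨((List.range 0).map c).reverse, []⟩ = update z (.reg i) Zip.nil := by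
    rw [hz, Nat.add_zero, update_wst_inp]
    rfl
  rw [e3] at h1
  have h2 := run_rew (d := d) (f := (.reg i : WF R V A.Tape))
    (l := ((List.range W).map c).reverse) (r := []) (m := m)
    (z := update (update z .inp (atp w (q + W))) (.reg i) ⟨((List.range W).map c).reverse, []⟩)
    (by rw [Function.update_self])
  have e4 : (⟨[], ((List.range W).map c).reverse.reverse ++ []⟩ : Zip α) =
      word E.bit W (H778.val ((List.range W).map fun t => unbit (w.getD (q + t) (E.bit false)))) := by
    unfold word
    have h3 := H778.bits_val ((List.range W).map fun t => unbit (w.getD (q + t) (E.bit false)))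
    rw [List.length_map, List.length_range] at h3
    rw [h3]
    simp [hc]
  rw [e4, Function.update_idem, hz, update_wst_inp, update_wst_reg] at h2
  have e5 : update (update z .inp (atp w (q + W))) (.reg i)
      ⟨((List.range W).map c).reverse, []⟩ = update (wst E.bit W p μ NR LR w (q + W) o u g)
      (.reg i) ⟨((List.range W).map c).reverse, []⟩ := by
    rw [hz, update_wst_inp]
  rw [e5] at h1
  have h3 := Run.seq h0 (Run.seq h1 (Run.seq h2 (run_skip _)))
  exact h3.mono (by omega)


theorem run_wr2 (hNR : NR.length = W) (hW : 1 ≤ W) (i : V) :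
    Run d (wprog E unbit (.wr i)) ⟨m, wst E.bit W p μ NR LR w q o u g⟩ (12 * W + 12)
      ⟨m, wst E.bit W p μ NR LR w q (o ++ (bits W (u i)).map E.bit) u g⟩ := by
  have hfo : (.reg i : WF R V A.Tape) ≠ .out := by simp
  set z := wst E.bit W p μ NR LR w q o u g with hz
  have h1 := run_copyN (d := d) (e := E.bit false) (f := (.reg i : WF R V A.Tape)) (g := .out)
    (r := .wid) hfo (by simp) (by simp) (x := (bits W (u i)).map E.bit) (u := []) (y := [])
    (v := o.reverse) (R := NR) (m := m) (z := z) (by simp [hNR])
    (by rw [hz, wst_reg, List.append_nil]; rfl) (by rw [hz, wst_out]) (by rw [hz, wst_wid])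
  rw [List.append_nil] at h1
  have h2 := run_rew (d := d) (f := (.reg i : WF R V A.Tape))
    (l := ((bits W (u i)).map E.bit).reverse) (r := []) (m := m)
    (z := update (update z (.reg i) ⟨((bits W (u i)).map E.bit).reverse, []⟩) .out
      ⟨((bits W (u i)).map E.bit).reverse ++ o.reverse, []⟩)
    (by rw [Function.update_of_ne hfo, Function.update_self])
  have e1 : update (update (update z (.reg i) ⟨((bits W (u i)).map E.bit).reverse, []⟩) .out
      ⟨((bits W (u i)).map E.bit).reverse ++ o.reverse, []⟩) (.reg i)
      ⟨[], ((bits W (u i)).map E.bit).reverse.reverse ++ []⟩ =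
      wst E.bit W p μ NR LR w q (o ++ (bits W (u i)).map E.bit) u g := by
    rw [← List.reverse_append, Function.update_comm hfo, hz]
    rw [Function.update_idem, List.reverse_reverse, List.append_nil]
    have h3 := update_wst_reg (bit := E.bit) (W := W) (p := p) (μ := μ) (NR := NR) (LR := LR)
      (w := w) (q := q) (o := o ++ (bits W (u i)).map E.bit) (u := u) (g := g) i (u i)
    rw [Function.update_eq_self] at h3
    have h4 : (⟨[], (bits W (u i)).map E.bit⟩ : Zip α) = word E.bit W (u i) := rfl
    rw [h4, update_wst_out, h3]
  rw [e1] at h2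
  have h3 := Run.seq h1 (Run.seq h2 (run_skip _))
  rw [hNR] at h3
  exact h3.mono (by omega)


theorem run_wrl2 (hNR : NR.length = W) (hLR : LR.length = L) (hL : L ≤ W) (hW : 1 ≤ W) (i : V) :
    Run d (wprog E unbit (.wrl i)) ⟨m, wst E.bit W p μ NR LR w q o u g⟩ (12 * W + 12)
      ⟨m, wst E.bit W p μ NR LR w q (o ++ ((bits W (u i)).drop (W - L)).map E.bit) u g⟩ := by
  have hfo : (.reg i : WF R V A.Tape) ≠ .out := by simp
  have hfw : (.reg i : WF R V A.Tape) ≠ .wid := by simp
  have hfl : (.reg i : WF R V A.Tape) ≠ .wl := by simp
  set z := wst E.bit W p μ NR LR w q o u g with hz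
  set a := ((bits W (u i)).take (W - L)).map E.bit with ha
  set b := ((bits W (u i)).drop (W - L)).map E.bit with hb
  have hab : (bits W (u i)).map E.bit = a ++ b := by
    rw [ha, hb, ← List.map_append, List.take_append_drop]
  have hbl : b.length = L := by
    rw [hb, List.length_map, List.length_drop, H778.length_bits]
    omega
  have h1 := run_toEnd (d := d) (f := (.reg i : WF R V A.Tape)) (r := .wid) hfw
    (x := (bits W (u i)).map E.bit) (Rl := NR) (m := m) (z := z) (by simp [hNR])
    (by rw [hz, wst_reg]; rfl) (by rw [hz, wst_wid])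
  have h2 := run_back (d := d) (f := (.reg i : WF R V A.Tape)) (r := .wl) hfl
    (a := a) (b := b) (Rl := LR) (m := m)
    (z := update z (.reg i) ⟨((bits W (u i)).map E.bit).reverse, []⟩) (by rw [hbl, hLR])
    (by rw [Function.update_self, hab])
    (by rw [Function.update_of_ne hfl.symm, hz, wst_wl])
  rw [Function.update_idem] at h2
  have h3 := run_copyN (d := d) (e := E.bit false) (f := (.reg i : WF R V A.Tape)) (g := .out)
    (r := .wl) hfo hfl (by simp) (x := b) (u := a.reverse) (y := [])
    (v := o.reverse) (R := LR) (m := m) (z := update z (.reg i) ⟨a.reverse, b⟩)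
    (by rw [hbl, hLR])
    (by rw [Function.update_self, List.append_nil])
    (by rw [Function.update_of_ne hfo.symm, hz, wst_out])
    (by rw [Function.update_of_ne hfl.symm, hz, wst_wl])
  rw [Function.update_idem] at h3
  have h4 := run_rew (d := d) (f := (.reg i : WF R V A.Tape))
    (l := b.reverse ++ a.reverse) (r := []) (m := m)
    (z := update (update z (.reg i) ⟨b.reverse ++ a.reverse, []⟩) .out
      ⟨b.reverse ++ o.reverse, []⟩)
    (by rw [Function.update_of_ne hfo, Function.update_self])
  have e1 : update (update (update z (.reg i) ⟨b.reverse ++ a.reverse, []⟩) .out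
      ⟨b.reverse ++ o.reverse, []⟩) (.reg i)
      ⟨[], (b.reverse ++ a.reverse).reverse ++ []⟩ =
      wst E.bit W p μ NR LR w q (o ++ b) u g := by
    rw [← List.reverse_append, ← List.reverse_append, Function.update_comm hfo, hz]
    rw [Function.update_idem, List.reverse_reverse, List.append_nil, ← hab]
    have h3 := update_wst_reg (bit := E.bit) (W := W) (p := p) (μ := μ) (NR := NR) (LR := LR)
      (w := w) (q := q) (o := o ++ b) (u := u) (g := g) i (u i)
    rw [Function.update_eq_self] at h3
    have h4 : (⟨[], (bits W (u i)).map E.bit⟩ : Zip α) = word E.bit W (u i) := rfl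
    rw [h4, update_wst_out, h3]
  rw [e1] at h4
  have h5 := Run.seq h1 (Run.seq h2 (Run.seq h3 (Run.seq h4 (run_skip _))))
  rw [hNR, hLR] at h5
  exact h5.mono (by omega)


theorem run_cp2 (hNR : NR.length = W) (hW : 1 ≤ W) (i j : V) :
    Run d (wprog E unbit (.cp i j)) ⟨m, wst E.bit W p μ NR LR w q o u g⟩ (12 * W + 12)
      ⟨m, wst E.bit W p μ NR LR w q o (update u i (u j)) g⟩ := by
  by_cases hij : i = j
  · subst hij
    simp only [wprog, if_true]
    rw [Function.update_eq_self]
    exact (run_skip _).mono (by omega)
  · simp only [wprog, hij, if_false]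
    have hij' : (.reg i : WF R V A.Tape) ≠ .reg j := by simpa using hij
    set z := wst E.bit W p μ NR LR w q o u g with hz
    have h0 := run_trunc (d := d) (m := m) (z := z) (f := .reg i) (wst_reg i)
    have h1 := run_cpF (d := d) (e := E.bit false) (f := (.reg j : WF R V A.Tape))
      (g := .reg i) (r := .wid) hij'.symm (by simp) (by simp) (x := (bits W (u j)).map E.bit)
      (R := NR) (m := m) (z := update z (.reg i) Zip.nil) (by simp [hNR])
      (by rw [Function.update_of_ne hij'.symm, hz, wst_reg]; rfl)
      (by rw [Function.update_self])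
      (by rw [Function.update_of_ne (by simp), hz, wst_wid])
    have h2 : (⟨[], (bits W (u j)).map E.bit⟩ : Zip α) = word E.bit W (u j) := rfl
    rw [Function.update_idem, h2, hz, update_wst_reg] at h1
    have h3 := Run.seq h0 (Run.seq h1 (run_skip _))
    rw [hNR] at h3
    exact h3.mono (by omega)


theorem run_one2 (hNR : NR.length = W) (hW : 1 ≤ W) (i : V) :
    Run d (wprog E unbit (.one i)) ⟨m, wst E.bit W p μ NR LR w q o u g⟩ (12 * W + 12)
      ⟨m, wst E.bit W p μ NR LR w q o (update u i 1) g⟩ := by
  have hfw : (.reg i : WF R V A.Tape) ≠ .wid := by simp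
  obtain ⟨k, hk⟩ : ∃ k, W = k + 1 := ⟨W - 1, by omega⟩
  set z := wst E.bit W p μ NR LR w q o u g with hz
  have h0 := run_trunc (d := d) (m := m) (z := z) (f := .reg i) (wst_reg i)
  have h1 := run_fill (d := d) (f := (.reg i : WF R V A.Tape)) (r := .wid) hfw (E.bit false)
    (Rl := NR) (m := m) (z := update z (.reg i) Zip.nil) (by rw [Function.update_self])
    (by rw [Function.update_of_ne hfw.symm, hz, wst_wid])
  rw [Function.update_idem, hNR] at h1
  have h2 := run_act' (d := d) (f := (.reg i : WF R V A.Tape)) (o := .left)
    (v := ⟨List.replicate k (E.bit false), [E.bit false]⟩) (m := m)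
    (z := update z (.reg i) ⟨List.replicate W (E.bit false), []⟩)
    (by
      rw [Function.update_self, hk]
      rfl)
  rw [Function.update_idem] at h2
  have h3 := run_act' (d := d) (f := (.reg i : WF R V A.Tape)) (o := .write (E.bit true))
    (v := ⟨List.replicate k (E.bit false), [E.bit true]⟩) (m := m)
    (z := update z (.reg i) ⟨List.replicate k (E.bit false), [E.bit false]⟩)
    (by
      rw [Function.update_self]
      rfl)
  rw [Function.update_idem] at h3
  have h4 := run_rew (d := d) (f := (.reg i : WF R V A.Tape))
    (l := List.replicate k (E.bit false)) (r := [E.bit true]) (m := m)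
    (z := update z (.reg i) ⟨List.replicate k (E.bit false), [E.bit true]⟩)
    (by rw [Function.update_self])
  have e1 : (⟨[], (List.replicate k (E.bit false)).reverse ++ [E.bit true]⟩ : Zip α) =
      word E.bit W 1 := by
    unfold word
    rw [bits_one W hW, hk]
    simp
  rw [Function.update_idem, e1, hz, update_wst_reg] at h4
  have h5 := Run.seq h0 (Run.seq h1 (Run.seq h2 (Run.seq h3 (Run.seq h4 (run_skip _)))))
  exact h5.mono (by omega)

/-- The programs implement the instructions. -/
theorem impl_wprog2 (hA : Multiplies A) (hfile : ∀ c, E.file c = .call c)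
    (hu : ∀ b, unbit (E.bit b) = b)
    (hm : E.put (mem0 A) m = m) (hNR : NR.length = W) (hLR : LR.length = L) (hL : L ≤ W)
    (hW : 1 ≤ W) (hp : p < 2 ^ W) (hμ : μ < 2 ^ W) :
    XP.Impl d .inp .out w (E.bit false) (wX R V A.Tape) (wz E.bit W p μ NR LR) m
      ((wsem (V := V) W L p μ).sym E.bit unbit) (wprog E unbit) (wc2 A W) := by
  intro j g q o u
  have e0 : ∀ (o : List α), o ++ ([] : List Bool).map E.bit = o := by simp
  cases j with
  | rd i =>
    have := run_rd2 (E := E) (unbit := unbit) (p := p) (μ := μ) (LR := LR) (w := w) (q := q)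
      (o := o) (u := u) (g := g) (m := m) hu hNR hW i
    simp only [XSem.sym, wsem, WI.adv, WI.out, WI.nxt, List.map_nil, List.append_nil]
    exact this
  | wr i =>
    have := run_wr2 (E := E) (unbit := unbit) (p := p) (μ := μ) (LR := LR) (w := w) (q := q)
      (o := o) (u := u) (g := g) (m := m) hNR hW i
    simp only [XSem.sym, wsem, WI.adv, WI.out, WI.nxt, Nat.add_zero]
    exact this
  | wrl i =>
    have := run_wrl2 (E := E) (unbit := unbit) (p := p) (μ := μ) (LR := LR) (w := w) (q := q)
      (o := o) (u := u) (g := g) (m := m) hNR hLR hL hW i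
    simp only [XSem.sym, wsem, WI.adv, WI.out, WI.nxt, Nat.add_zero]
    exact this
  | mul i j k =>
    have := runX_mul (E := E) (unbit := unbit) (p := p) (μ := μ) (LR := LR) (w := w) (q := q)
      (o := o) (u := u) (g := g) (m := m) hA hfile hm hNR hW hp hμ i j k
    simp only [XSem.sym, wsem, WI.adv, WI.out, WI.nxt, List.map_nil, List.append_nil,
      Nat.add_zero]
    exact this
  | cp i j =>
    have := run_cp2 (E := E) (unbit := unbit) (p := p) (μ := μ) (LR := LR) (w := w) (q := q)
      (o := o) (u := u) (g := g) (m := m) hNR hW i j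
    simp only [XSem.sym, wsem, WI.adv, WI.out, WI.nxt, List.map_nil, List.append_nil,
      Nat.add_zero]
    exact this
  | one i =>
    have := run_one2 (E := E) (unbit := unbit) (p := p) (μ := μ) (LR := LR) (w := w) (q := q)
      (o := o) (u := u) (g := g) (m := m) hNR hW i
    simp only [XSem.sym, wsem, WI.adv, WI.out, WI.nxt, List.map_nil, List.append_nil,
      Nat.add_zero]
    exact this

end instr

section pass

variable {M R V α : Type} [Finite R] [Finite V] [DecidableEq R] [DecidableEq V] [DecidableEq α]
  {d : α} {A : MTM}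

/-- **The `Run` statement of a pass.** The scratch registers (list `sc`) are empty files before
and after the pass; their values at the beginning of the loop program are `0`. -/
theorem run_wpassX2 (hA : Multiplies A) (E : CallEnv A M (WF R V A.Tape) α d)
    (hfile : ∀ c, E.file c = .call c) (one mk : α) (hmk : one ≠ mk) (sc : List V)
    (hsc : sc.Nodup) (a : XP R Bool (WI V)) (hwf : a.WF) {mem : M}
    (hm : E.put (mem0 A) mem = mem) {W L p μ : ℕ} (hL : L ≤ W) (hW : 1 ≤ W) (hp : p < 2 ^ W)
    (hμ : μ < 2 ^ W) (m : R → ℕ) (hm0 : ∀ r ∈ a.uses, 0 < m r) (u u1 : V → ℕ)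
    (w : List Bool) (z : WF R V A.Tape → Zip α) (hz : WInit E one sc a W L p μ m u w z)
    {n : ℕ} {out : List Bool}
    (h : XP.eval m w false (wsem W L p μ) a
      ⟨fun _ => 0, 0, [], fun i => if i ∈ sc then 0 else u i⟩ = ⟨fun _ => 0, n, out, u1⟩) :
    Run d (wpass E one mk sc a) ⟨mem, z⟩
      (XP.bd m (wc2 A W) a + sc.length * (4 * W + 4) + 4)
      ⟨mem, update (setR (fun i => if i ∈ sc then Zip.nil else word E.bit W (u1 i)) z) .out
        ⟨[], out.map E.bit⟩⟩ := by
  obtain ⟨NR, hNR, hNRl⟩ := hz.wid
  obtain ⟨LR, hLR, hLRl⟩ := hz.wl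
  -- first part
  have h1 := run_initL (d := d) (E.bit false) NR mem z hNR sc hsc (fun i => z (.reg i))
    (by
      intro i hi
      rw [hz.reg, if_pos hi])
  rw [setR_self] at h1
  set g1 : V → Zip α := fun i => if i ∈ sc then ⟨[], List.replicate NR.length (E.bit false)⟩ else
    z (.reg i) with hg1
  have e1 : g1 = fun i => word E.bit W (if i ∈ sc then 0 else u i) := by
    funext i
    rw [hg1]
    by_cases hi : i ∈ sc
    · simp only [hi, if_true, word]
      rw [H778.bits_zero, List.map_replicate, hNRl]
    · simp only [hi, if_false]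
      rw [hz.reg, if_neg hi]
  -- second part
  have himpl : XP.Impl d .inp .out (w.map E.bit) (E.bit false) (wX R V A.Tape)
      (wz E.bit W p μ NR LR) mem ((wsem (V := V) W L p μ).sym E.bit E.unbit)
      (wprog E E.unbit) (wc2 A W) :=
    impl_wprog2 hA hfile E.unbit_bit hm hNRl hLRl hL hW hp hμ
  have hev : XP.eval m (w.map E.bit) (E.bit false) ((wsem (V := V) W L p μ).sym E.bit E.unbit)
      (a.sym E.bit) ⟨fun _ => 0, 0, [], fun i => if i ∈ sc then 0 else u i⟩ =
      ⟨fun _ => 0, n, out.map E.bit, u1⟩ := by
    have := XP.eval_sym E.bit E.unbit_bit m w false (wsem (V := V) W L p μ) a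
      ⟨fun _ => 0, 0, [], fun i => if i ∈ sc then 0 else u i⟩
    rw [h] at this
    exact this
  have h2 := XP.run_passX (d := d) (M := M) (WF.rul : R → WF R V A.Tape)
    (fun a b h => by simpa using h) (a.sym E.bit) (XP.wf_sym E.bit a hwf) .inp .out (by simp)
    (wX R V A.Tape) (by rw [mem_wX]; exact id) (by rw [mem_wX]; exact id) (by simp) (by simp)
    (fun r => by rw [mem_wX]; exact id) one mk (E.bit false) hmk mem (wz E.bit W p μ NR LR)
    ((wsem (V := V) W L p μ).sym E.bit E.unbit) (wprog E E.unbit) (wc2 A W)
    (w.map E.bit) himpl (setR g1 z) m hz.inp hz.out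
    (by
      intro r hr
      rw [XP.uses_sym] at hr
      exact ⟨_, hz.rul r hr, by simp, fun _ => rfl⟩)
    (by
      intro r hr
      rw [XP.uses_sym] at hr
      exact hm0 r hr)
    (x0 := fun i => if i ∈ sc then 0 else u i) (x1 := u1)
    (by
      intro f hf
      rw [mem_wX] at hf
      cases f with
      | inp => exact absurd hf id
      | out => exact absurd hf id
      | rul r => exact absurd hf id
      | reg i =>
        show g1 i = _
        rw [e1]
        rfl
      | wid => exact hNR
      | wp => exact hz.wp
      | wmu => exact hz.wmu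
      | wl => exact hLR
      | call c => exact hz.call c)
    hev
  rw [XP.bd_sym] at h2
  have e2 : (fun f => if f = .out then (⟨[], out.map E.bit⟩ : Zip α) else
      if f ∈ wX R V A.Tape then wz E.bit W p μ NR LR u1 f else setR g1 z f) =
      setR (fun i => word E.bit W (u1 i)) (update z .out ⟨[], out.map E.bit⟩) := by
    funext f
    cases f with
    | inp =>
      rw [if_neg (by simp), if_neg (by rw [mem_wX]; exact id)]
      exact (Function.update_of_ne (by simp) _ _).symm
    | out =>
      rw [if_pos rfl]
      exact (Function.update_self (WF.out : WF R V A.Tape) _ z).symm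
    | rul r =>
      rw [if_neg (by simp), if_neg (by rw [mem_wX]; exact id)]
      exact (Function.update_of_ne (by simp) _ _).symm
    | reg i =>
      rw [if_neg (by simp), if_pos (by rw [mem_wX]; trivial)]
      rfl
    | wid =>
      rw [if_neg (by simp), if_pos (by rw [mem_wX]; trivial)]
      exact (hNR.symm.trans (Function.update_of_ne (by simp) _ _).symm)
    | wp =>
      rw [if_neg (by simp), if_pos (by rw [mem_wX]; trivial)]
      exact (hz.wp.symm.trans (Function.update_of_ne (by simp) _ _).symm)
    | wmu =>
      rw [if_neg (by simp), if_pos (by rw [mem_wX]; trivial)]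
      exact (hz.wmu.symm.trans (Function.update_of_ne (by simp) _ _).symm)
    | wl =>
      rw [if_neg (by simp), if_pos (by rw [mem_wX]; trivial)]
      exact (hLR.symm.trans (Function.update_of_ne (by simp) _ _).symm)
    | call c =>
      rw [if_neg (by simp), if_pos (by rw [mem_wX]; trivial)]
      exact ((hz.call c).symm.trans (Function.update_of_ne (by simp) _ _).symm)
  rw [e2] at h2
  -- third part
  have h3 := run_clrW (d := d) mem (update z .out ⟨[], out.map E.bit⟩) sc
    (fun i => word E.bit W (u1 i)) (fun i _ => ⟨_, rfl⟩)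
  have e3 : setR (fun i => if i ∈ sc then Zip.nil else word E.bit W (u1 i))
      (update z .out ⟨[], out.map E.bit⟩) =
      update (setR (fun i => if i ∈ sc then Zip.nil else word E.bit W (u1 i)) z) .out
        ⟨[], out.map E.bit⟩ := by
    funext f
    by_cases hf : f = .out
    · subst hf
      rw [Function.update_self]
      exact Function.update_self _ _ _
    · rw [Function.update_of_ne hf]
      cases f with
      | reg i => rfl
      | out => exact absurd rfl hf
      | inp => exact Function.update_of_ne hf _ _
      | rul r => exact Function.update_of_ne hf _ _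
      | wid => exact Function.update_of_ne hf _ _
      | wp => exact Function.update_of_ne hf _ _
      | wmu => exact Function.update_of_ne hf _ _
      | wl => exact Function.update_of_ne hf _ _
      | call c => exact Function.update_of_ne hf _ _
  rw [e3] at h3
  refine (Run.seq h1 (Run.seq h2 h3)).mono ?_
  rw [hNRl]
  ring_nf
  omega

/-- The `Run` statement of a pass that does not change the other registers. -/
theorem run_wpassX2' (hA : Multiplies A) (E : CallEnv A M (WF R V A.Tape) α d)
    (hfile : ∀ c, E.file c = .call c) (one mk : α) (hmk : one ≠ mk) (sc : List V)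
    (hsc : sc.Nodup) (a : XP R Bool (WI V)) (hwf : a.WF) {mem : M}
    (hm : E.put (mem0 A) mem = mem) {W L p μ : ℕ} (hL : L ≤ W) (hW : 1 ≤ W) (hp : p < 2 ^ W)
    (hμ : μ < 2 ^ W) (m : R → ℕ) (hm0 : ∀ r ∈ a.uses, 0 < m r) (u u1 : V → ℕ)
    (hu1 : ∀ i, i ∉ sc → u1 i = u i)
    (w : List Bool) (z : WF R V A.Tape → Zip α) (hz : WInit E one sc a W L p μ m u w z)
    {n : ℕ} {out : List Bool}
    (h : XP.eval m w false (wsem W L p μ) a
      ⟨fun _ => 0, 0, [], fun i => if i ∈ sc then 0 else u i⟩ = ⟨fun _ => 0, n, out, u1⟩) :
    Run d (wpass E one mk sc a) ⟨mem, z⟩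
      (XP.bd m (wc2 A W) a + sc.length * (4 * W + 4) + 4)
      ⟨mem, update z .out ⟨[], out.map E.bit⟩⟩ := by
  have h1 := run_wpassX2 hA E hfile one mk hmk sc hsc a hwf hm hL hW hp hμ m hm0 u u1 w z hz h
  have e1 : setR (fun i => if i ∈ sc then Zip.nil else word E.bit W (u1 i)) z = z := by
    have : (fun i => if i ∈ sc then Zip.nil else word E.bit W (u1 i)) = fun i => z (.reg i) := by
      funext i
      rw [hz.reg]
      by_cases hi : i ∈ sc
      · simp [hi]
      · simp [hi, hu1 i hi]
    rw [this, setR_self]
  rwa [e1] at h1

/-- The pass embedded in a larger machine. -/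
theorem run_wpassMap2 {F : Type} [DecidableEq F] (hA : Multiplies A)
    (E : CallEnv A M (WF R V A.Tape) α d)
    (hfile : ∀ c, E.file c = .call c) (one mk : α) (hmk : one ≠ mk) (sc : List V)
    (hsc : sc.Nodup) (a : XP R Bool (WI V)) (hwf : a.WF) {mem : M}
    (hm : E.put (mem0 A) mem = mem) {W L p μ : ℕ} (hL : L ≤ W) (hW : 1 ≤ W) (hp : p < 2 ^ W)
    (hμ : μ < 2 ^ W) (m : R → ℕ) (hm0 : ∀ r ∈ a.uses, 0 < m r) (u u1 : V → ℕ)
    (hu1 : ∀ i, i ∉ sc → u1 i = u i)
    (w : List Bool) {ι : WF R V A.Tape → F} (hι : Function.Injective ι) (z : F → Zip α)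
    (hz : WInit E one sc a W L p μ m u w fun f => z (ι f))
    {n : ℕ} {out : List Bool}
    (h : XP.eval m w false (wsem W L p μ) a
      ⟨fun _ => 0, 0, [], fun i => if i ∈ sc then 0 else u i⟩ = ⟨fun _ => 0, n, out, u1⟩) :
    Run d ((wpass E one mk sc a).map (Lens.idL M) ι) ⟨mem, z⟩
      (XP.bd m (wc2 A W) a + sc.length * (4 * W + 4) + 4)
      ⟨mem, update z (ι .out) ⟨[], out.map E.bit⟩⟩ :=
  Prog.Run.map_update hι (run_wpassX2' hA E hfile one mk hmk sc hsc a hwf hm hL hW hp hμ m hm0 u
    u1 hu1 w _ hz h) (fun _ => rfl)

end pass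

end Vale.Agent.P338.R2.H335.Bp
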